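import Vale.Agent.P032.H357.MdK

/-!
# P032: the colours of a sector near its end rays

For an irredundant cover `T` the directions just after a ray `j` (just before the ray `j + 1`) are limit directions of
pure points of some colour; there are six colours, so one colour occurs in the directions of the sector `j` which
accumulate at the ray.  This colour is in the sector `j` and, since these directions are inside the circle, in the
zone `3` of the ray `j` (in the zone `1` of the ray `j + 1`).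

* `z1b` : some colour is in the zone `3` of the ray `j` and in the sector `j`,
* `z1a` : some colour is in the sector `j` and in the zone `1` of the ray `j + 1`,
* `aro`, `alo` : at every ray some colour accumulates from the right, from the left,
* `ar0`, `ar3`, `al0`, `al1` : the cells of such a colour,
* `ZE` : these rules for a model, `ze_mkMdC` : they hold in the model of a map.
-/

open Set Filter Topology Metric

noncomputable section

namespace Vale.Agent.P032.H888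

open Vale.Agent.P032.Six Vale.Agent.P032.H892 Vale.Agent.P032.H913 Vale.Agent.P032.S5.H767 Vale.Agent.P032.H61
  Vale.Agent.P032.H357 Vale.Agent.P032.H357.MK
open Vale.Agent.P032.H820.K (ad Md)

variable {U : Fin 6 → Set ℂ} {T : ℂ → Set (Fin 6)}

/-! ### limit directions -/

/-- every direction is a limit direction of the pure points of some colour -/
theorem exists_ds (h : Irr U T) (x : ℂ) (θ : ℝ) : ∃ q, θ ∈ DS (Sq T q) x := by
  obtain ⟨q, hq⟩ := exists_pure h (x := x) (θ := θ) (Z := univ) isOpen_univ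
    (freq_curve (γ := fun r => (r, θ)) (((by fun_prop : Continuous fun r : ℝ => (r, θ)).tendsto 0).mono_left
      nhdsWithin_le_nhds) (by
        filter_upwards [self_mem_nhdsWithin] with r hr
        exact ⟨trivial, hr⟩))
  exact ⟨q, hq.mono fun p hp => hp.1⟩

/-- one of the colours occurs frequently -/
theorem exists_acc (h : Irr U T) (x : ℂ) (l : Filter ℝ) [l.NeBot] (f : ℝ → ℝ) :
    ∃ q, ∃ᶠ v in l, f v ∈ DS (Sq T q) x := by
  by_contra hcon
  have h1 : ∀ᶠ v in l, ∀ q, f v ∉ DS (Sq T q) x := by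
    rw [eventually_all]
    intro q
    exact not_frequently.1 fun h2 => hcon ⟨q, h2⟩
  obtain ⟨v, hv⟩ := h1.exists
  obtain ⟨q, hq⟩ := exists_ds h x (f v)
  exact hv q hq

/-- a limit direction into the disc about `x + dir u` -/
theorem freq_in {S : Set ℂ} {x : ℂ} {v u : ℝ} (h : v ∈ DS S x) (hc : 0 < Real.cos ((v - u) * (Real.pi / 3))) :
    ∃ᶠ p in 𝓝 ((0 : ℝ), v), p ∈ H357.PS S x ∧ dist (po x p) (x + dir u) < 1 := by
  set C := Real.cos ((v - u) * (Real.pi / 3)) with hC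
  have h2 : ∀ᶠ p : ℝ × ℝ in 𝓝 ((0 : ℝ), v), C / 2 < Real.cos ((p.2 - u) * (Real.pi / 3)) :=
    (cosc u).continuousAt.eventually_const_lt (by show C / 2 < C; linarith)
  have h3 : ∀ᶠ p : ℝ × ℝ in 𝓝 ((0 : ℝ), v), p.1 < C :=
    continuous_fst.continuousAt.eventually_lt_const hc
  refine ((show ∃ᶠ p in 𝓝 ((0 : ℝ), v), p ∈ H357.PS S x from h).and_eventually (h2.and h3)).mono fun p hp => ?_
  obtain ⟨hp, hp2, hp3⟩ := hp
  refine ⟨hp, ?_⟩
  rw [add_dir]
  refine lt_one_of_sq dist_nonneg ?_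
  have h4 := sq_dist_po x p.1 p.2 u
  rw [show (p.1, p.2) = p from rfl] at h4
  have h6 := hp.1
  rw [h4]; nlinarith

/-- limit directions into the disc which accumulate at the direction `θ` -/
theorem freq_in_lim {S : Set ℂ} {x : ℂ} {θ u : ℝ} {l : Filter ℝ} (hl : l ≤ 𝓝 θ) (h : ∃ᶠ v in l, v ∈ DS S x)
    (hc : ∀ᶠ v in l, 0 < Real.cos ((v - u) * (Real.pi / 3))) :
    ∃ᶠ p in 𝓝 ((0 : ℝ), θ), p ∈ H357.PS S x ∧ dist (po x p) (x + dir u) < 1 := by
  by_contra hcon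
  rw [not_frequently] at hcon
  have h1 := eventually_eventually_nhds.2 hcon
  have ht : Tendsto (fun v : ℝ => ((0 : ℝ), v)) l (𝓝 ((0 : ℝ), θ)) :=
    ((by fun_prop : Continuous fun v : ℝ => ((0 : ℝ), v)).tendsto θ).mono_left hl
  obtain ⟨v, hv, hcv, h3⟩ := (h.and_eventually (hc.and (ht.eventually h1))).exists
  exact (freq_in hv hcv) h3

/-! ### cells at the ends of a sector -/

section
variable {K : ℕ} {a : ℕ → ℝ} {S : Set ℂ} {x : ℂ} {j : ℕ}

/-- directions which accumulate at the ray from the right: zone `3` -/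
theorem cl3_of_acc (h : ∃ᶠ v in 𝓝[>] (ra a j), v ∈ DS S x) : Cl S x a 3 j := by
  have hpi := Real.pi_pos
  refine (cl_pos (by norm_num)).2 ((freq_in_lim (u := a j + 3) nhdsWithin_le_nhds h ?_).mono fun p hp =>
    ⟨hp.1, zn_three.2 ?_⟩)
  · filter_upwards [Ioo_mem_nhdsGT (show ra a j < ra a j + 1 by linarith)] with v hv
    have h1 := hv.1
    have h2 := hv.2
    unfold ra at h1 h2
    exact Real.cos_pos_of_mem_Ioo ⟨by nlinarith, by nlinarith⟩
  · have := hp.2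
    rwa [dir_add_three, ← sub_eq_add_neg] at this

/-- directions which accumulate at the ray from the left: zone `1` -/
theorem cl1_of_acc (h : ∃ᶠ v in 𝓝[<] (ra a j), v ∈ DS S x) : Cl S x a 1 j := by
  have hpi := Real.pi_pos
  refine (cl_pos (by norm_num)).2 ((freq_in_lim (u := a j) nhdsWithin_le_nhds h ?_).mono fun p hp =>
    ⟨hp.1, zn_one.2 hp.2⟩)
  filter_upwards [Ioo_mem_nhdsLT (show ra a j - 1 < ra a j by linarith)] with v hv
  have h1 := hv.1
  have h2 := hv.2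
  unfold ra at h1 h2
  exact Real.cos_pos_of_mem_Ioo ⟨by nlinarith, by nlinarith⟩

theorem cl0_of_accR (A : Tick K a) (h : ∃ᶠ v in 𝓝[>] (ra a j), v ∈ DS S x) : Cl S x a 0 j := by
  obtain ⟨v, h1, h2⟩ := (h.and_eventually (Ioo_mem_nhdsGT (CK.ra_lt A (Nat.lt_succ_self j)))).exists
  exact cl_zero.2 ⟨v, h2, h1⟩

theorem cl0_of_accL (A : Tick K a) (h : ∃ᶠ v in 𝓝[<] (ra a (j + 1)), v ∈ DS S x) : Cl S x a 0 j := by
  obtain ⟨v, h1, h2⟩ := (h.and_eventually (Ioo_mem_nhdsLT (CK.ra_lt A (Nat.lt_succ_self j)))).exists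
  exact cl_zero.2 ⟨v, h2, h1⟩

/-- **start of a sector** -/
theorem z1b (h : Irr U T) (A : Tick K a) (x : ℂ) (j : ℕ) : ∃ q, Cl (Sq T q) x a 3 j ∧ Cl (Sq T q) x a 0 j := by
  obtain ⟨q, hq⟩ := exists_acc h x (𝓝[>] (ra a j)) fun v => v
  exact ⟨q, cl3_of_acc hq, cl0_of_accR A hq⟩

/-- **end of a sector** -/
theorem z1a (h : Irr U T) (A : Tick K a) (x : ℂ) (j : ℕ) :
    ∃ q, Cl (Sq T q) x a 0 j ∧ Cl (Sq T q) x a 1 (j + 1) := by
  obtain ⟨q, hq⟩ := exists_acc h x (𝓝[<] (ra a (j + 1))) fun v => v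
  exact ⟨q, cl0_of_accL A hq, cl1_of_acc hq⟩

end

/-! ### colours which accumulate at a ray, two classes -/

section
variable {a : ℕ → ℝ} {J : Type} {Y : J → ℂ} {c : J} {m : ℕ} {q : Fin 6}

theorem aro (h : Irr U T) (Y : J → ℂ) (c : J) (b : ℝ) : ∃ q, AccR (shD T Y c q) b := by
  obtain ⟨q, hq⟩ := exists_acc h (Y c) (𝓝[>] b) fun v => v + 3 / 2
  rw [ds_eq_dr h] at hq
  exact ⟨q, hq⟩

theorem alo (h : Irr U T) (Y : J → ℂ) (c : J) (b : ℝ) : ∃ q, AccL (shD T Y c q) b := by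
  obtain ⟨q, hq⟩ := exists_acc h (Y c) (𝓝[<] b) fun v => v + 3 / 2
  rw [ds_eq_dr h] at hq
  exact ⟨q, hq⟩

theorem ds_of_accR (h : Irr U T) {b : ℝ} (hacc : AccR (shD T Y c q) b) :
    ∃ᶠ v in 𝓝[>] (b + 3 / 2), v ∈ DS (Sq T q) (Y c) := by
  rw [ds_eq_dr h]
  exact (tendsto_add_right b (3 / 2)).frequently hacc

theorem ds_of_accL (h : Irr U T) {b : ℝ} (hacc : AccL (shD T Y c q) b) :
    ∃ᶠ v in 𝓝[<] (b + 3 / 2), v ∈ DS (Sq T q) (Y c) := by
  rw [ds_eq_dr h]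
  exact (tendsto_add_left b (3 / 2)).frequently hacc

theorem ra_even (A : Tick 2 a) (m : ℕ) : ra a (2 * m) = a 0 + m + 3 / 2 := by
  unfold ra; rw [a_even A]

theorem ra_even' (A : Tick 2 a) (m : ℕ) : ra a (2 * m + 1 + 1) = a 0 + m + 1 + 3 / 2 := by
  have := ra_even A (m + 1)
  rw [show 2 * (m + 1) = 2 * m + 1 + 1 by ring] at this
  rw [this]; push_cast; ring

/-- a colour which accumulates at the ray `2 m` from the right -/
theorem ar03 (h : Irr U T) (A : Tick 2 a) (hacc : AccR (shD T Y c q) (a 0 + m)) :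
    Cl (Sq T q) (Y c) a 0 (2 * m) ∧ Cl (Sq T q) (Y c) a 3 (2 * m) := by
  have h1 := ds_of_accR h hacc
  rw [← ra_even A] at h1
  exact ⟨cl0_of_accR A h1, cl3_of_acc h1⟩

/-- a colour which accumulates at the ray `2 m + 2` from the left -/
theorem al01 (h : Irr U T) (A : Tick 2 a) (hacc : AccL (shD T Y c q) (a 0 + m + 1)) :
    Cl (Sq T q) (Y c) a 0 (2 * m + 1) ∧ Cl (Sq T q) (Y c) a 1 (2 * m + 2) := by
  have h1 := ds_of_accL h hacc
  rw [← ra_even' A] at h1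
  exact ⟨cl0_of_accL A h1, cl1_of_acc h1⟩

end

/-! ### the rules for a model -/

/-- the rules for the ends of the sectors -/
structure ZE {K NP NW : ℕ} {nb : ℕ → ℕ → ℕ} (M : Md K NP NW nb) : Prop where
  z1a : ∀ {x j}, x < NP → j < 6 * K → ∃ q < 6, M.V 0 x j q ∧ M.V 1 x (ad K j 1) q
  z1b : ∀ {x j}, x < NP → j < 6 * K → ∃ q < 6, M.V 3 x j q ∧ M.V 0 x j q
  aro : ∀ {c m}, K = 2 → c < NW → m < 6 → ∃ q < 6, M.AR c m q
  alo : ∀ {c m}, K = 2 → c < NW → m < 6 → ∃ q < 6, M.AL c m q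
  ar0 : ∀ {c m q}, K = 2 → c < NW → m < 6 → q < 6 → M.AR c m q → M.V 0 c (2 * m) q
  ar3 : ∀ {c m q}, K = 2 → c < NW → m < 6 → q < 6 → M.AR c m q → M.V 3 c (2 * m) q
  al0 : ∀ {c m q}, K = 2 → c < NW → m < 6 → q < 6 → M.AL c m q → M.V 0 c (2 * m + 1) q
  al1 : ∀ {c m q}, K = 2 → c < NW → m < 6 → q < 6 → M.AL c m q → M.V 1 c (ad K (2 * m) 2) q

section
variable (h : Irr U T) {K : ℕ} {a : ℕ → ℝ} (A : Tick K a) (σ : Equiv.Perm (Fin 6)) (Y : ℕ → ℂ)
include h A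

theorem z1a_num (x j : ℕ) :
    ∃ q < 6, Cl (Sq T (co σ q)) (Y x) a 0 j ∧ Cl (Sq T (co σ q)) (Y x) a 1 (ad K j 1) := by
  obtain ⟨i, h1, h2⟩ := z1a h A (Y x) j
  obtain ⟨q, hq, rfl⟩ := co_surj σ i
  refine ⟨q, hq, h1, ?_⟩
  rw [ad_eq]
  exact (CK.cl_mod A).2 h2

theorem z1b_num (x j : ℕ) : ∃ q < 6, Cl (Sq T (co σ q)) (Y x) a 3 j ∧ Cl (Sq T (co σ q)) (Y x) a 0 j := by
  obtain ⟨i, h1, h2⟩ := z1b h A (Y x) j
  obtain ⟨q, hq, rfl⟩ := co_surj σ i
  exact ⟨q, hq, h1, h2⟩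

omit A in
theorem aro_num (a : ℕ → ℝ) (c m : ℕ) : ∃ q < 6, AccR (shD T Y c (co σ q)) (a 0 + m) := by
  obtain ⟨i, h1⟩ := aro h Y c (a 0 + m)
  obtain ⟨q, hq, rfl⟩ := co_surj σ i
  exact ⟨q, hq, h1⟩

omit A in
theorem alo_num (a : ℕ → ℝ) (c m : ℕ) : ∃ q < 6, AccL (shD T Y c (co σ q)) (a 0 + m + 1) := by
  obtain ⟨i, h1⟩ := alo h Y c (a 0 + m + 1)
  obtain ⟨q, hq, rfl⟩ := co_surj σ i
  exact ⟨q, hq, h1⟩

end

section
variable (h : Irr U T) {a : ℕ → ℝ} (A : Tick 2 a) {Y : ℕ → ℂ} {c m : ℕ} {q : Fin 6}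
include h A

theorem ar0_num (hacc : AccR (shD T Y c q) (a 0 + m)) : Cl (Sq T q) (Y c) a 0 (2 * m) := (ar03 h A hacc).1

theorem ar3_num (hacc : AccR (shD T Y c q) (a 0 + m)) : Cl (Sq T q) (Y c) a 3 (2 * m) := (ar03 h A hacc).2

theorem al0_num (hacc : AccL (shD T Y c q) (a 0 + m + 1)) : Cl (Sq T q) (Y c) a 0 (2 * m + 1) := (al01 h A hacc).1

theorem al1_num (hacc : AccL (shD T Y c q) (a 0 + m + 1)) : Cl (Sq T q) (Y c) a 1 (ad 2 (2 * m) 2) := by
  rw [ad_eq]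
  exact (CK.cl_mod A).2 (al01 h A hacc).2

end

/-- the rules hold in the model of a map -/
theorem ze_mkMdC (h : Irr U T) (hct : ∀ y, Ctn U T y)
    (h5 : ∀ y, ∃ i, i ∉ T y) (hln : Ln U T) {K : ℕ} {a : ℕ → ℝ} (A : Tick K a) (σ : Equiv.Perm (Fin 6)) {NP NW : ℕ}
    {nb : ℕ → ℕ → ℕ} (hK : 6 * K ≤ 256) (hNP : NP ≤ 4096) (hNW : NW ≤ NP) (Y : ℕ → ℂ)
    (hY : ∀ x < NP, ∀ t < 6 * K, nb x t < NP → Y (nb x t) = Y x + dir (a t))
    {W : ℕ → Fin NW → ℕ → ℕ → ℕ → Fin 6} (D : ∀ r, Wd U T K a (fun j : Fin NW => Y j.val) (W r)) :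
    ZE (mkMdC h hct h5 hln A σ hK hNP hNW Y hY D) where
  z1a := fun {x j} _ _ => z1a_num h A σ Y x j
  z1b := fun {x j} _ _ => z1b_num h A σ Y x j
  aro := fun {c m} _ _ _ => aro_num h σ Y a c m
  alo := fun {c m} _ _ _ => alo_num h σ Y a c m
  ar0 := fun {c m q} hK2 _ _ _ hacc => by
    subst hK2
    exact ar0_num h A hacc
  ar3 := fun {c m q} hK2 _ _ _ hacc => by
    subst hK2
    exact ar3_num h A hacc
  al0 := fun {c m q} hK2 _ _ _ hacc => by
    subst hK2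
    exact al0_num h A hacc
  al1 := fun {c m q} hK2 _ _ _ hacc => by
    subst hK2
    exact al1_num h A hacc

end Vale.Agent.P032.H888
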